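import Mathlib

/-!
Near-perfect versus perfect matchings in claw-free graphs of small diameter.
A matching is encoded by its mate map: an involution `m` with `m v = v` exactly at the uncovered
vertices and `G.Adj v (m v)` at the others.
-/

namespace Vale.Agent.Lib.P308

open Finset

variable {V : Type*} [Fintype V] [DecidableEq V]

/-- `m` is the mate map of a matching of `G`. -/
def IsMate (G : SimpleGraph V) (m : V → V) : Prop :=
  (∀ v, m (m v) = v) ∧ ∀ v, m v ≠ v → G.Adj v (m v)

/-- No vertex has three pairwise non-adjacent neighbours. -/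
def IsClawFree (G : SimpleGraph V) : Prop :=
  ∀ b x y z, G.Adj b x → G.Adj b y → G.Adj b z → x ≠ y → y ≠ z → x ≠ z →
    G.Adj x y ∨ G.Adj y z ∨ G.Adj x z

open Classical in
/-- Mate maps of perfect matchings: no fixed point. -/
noncomputable def perfectMates (G : SimpleGraph V) : Finset (V → V) :=
  univ.filter fun m => IsMate G m ∧ ∀ v, m v ≠ v

open Classical in
/-- Mate maps of near-perfect matchings: exactly two fixed points. -/
noncomputable def nearMates (G : SimpleGraph V) : Finset (V → V) :=
  univ.filter fun m => IsMate G m ∧ (univ.filter fun v => m v = v).card = 2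

open Classical in
theorem holes_of_mem {G : SimpleGraph V} {m : V → V} (hm : m ∈ nearMates G) {v : V} (hv : m v = v) :
    ∃ a, a ≠ v ∧ m a = a ∧ ∀ x, m x = x → x = v ∨ x = a := by
  have h2 := (mem_filter.mp hm).2.2
  obtain ⟨p, q, hpq, hs⟩ := Finset.card_eq_two.mp h2
  have hmem : ∀ x, m x = x ↔ x = p ∨ x = q := by
    intro x
    have : x ∈ univ.filter (fun v => m v = v) ↔ x ∈ ({p, q} : Finset V) := by rw [hs]
    simpa using this
  rcases (hmem v).mp hv with rfl | rfl
  · exact ⟨q, hpq.symm, (hmem q).mpr (Or.inr rfl), fun x hx => (hmem x).mp hx⟩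
  · exact ⟨p, hpq, (hmem p).mpr (Or.inl rfl), fun x hx => ((hmem x).mp hx).symm⟩

open Classical in
theorem mem_near_of {G : SimpleGraph V} {m : V → V} (hm : IsMate G m) {v a : V} (hav : a ≠ v)
    (hv : m v = v) (ha : m a = a) (hall : ∀ x, m x = x → x = v ∨ x = a) : m ∈ nearMates G := by
  refine mem_filter.mpr ⟨mem_univ _, hm, ?_⟩
  have : (univ.filter fun x => m x = x) = {v, a} := by
    ext x
    simp only [mem_filter, mem_univ, true_and, mem_insert, mem_singleton]
    constructor
    · exact hall x
    · rintro (rfl | rfl)
      · exact hv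
      · exact ha
  rw [this, Finset.card_pair hav.symm]

theorem adj_dist_le {G : SimpleGraph V} (hc : G.Connected) {a b : V} (h : G.Adj a b) (v : V) :
    G.dist a v ≤ G.dist b v + 1 := by
  obtain ⟨r, hr⟩ := hc.exists_walk_length_eq_dist b v
  have := SimpleGraph.dist_le (SimpleGraph.Walk.cons h r)
  simpa [hr] using this

theorem exists_next {G : SimpleGraph V} (hc : G.Connected) {a v : V} {k : ℕ}
    (h : G.dist a v = k + 1) : ∃ b, G.Adj a b ∧ G.dist b v = k := by
  obtain ⟨p, hp⟩ := hc.exists_walk_length_eq_dist a v
  cases p with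
  | nil => simp at h
  | cons hadj q =>
    rename_i b
    refine ⟨b, hadj, ?_⟩
    have hq : q.length = k := by
      simp only [SimpleGraph.Walk.length_cons] at hp
      omega
    have h1 := SimpleGraph.dist_le q
    have h2 := adj_dist_le hc hadj v
    omega

/-- The rotation step in a claw-free graph. -/
theorem exists_step {G : SimpleGraph V} (hc : G.Connected) (hclaw : IsClawFree G) {m : V → V}
    (hm : IsMate G m) {v a : V} {k : ℕ} (ha : m a = a)
    (hall : ∀ x, m x = x → x = v ∨ x = a) (hk : 1 ≤ k) (hd : G.dist a v = k + 1) :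
    ∃ x, G.Adj a x ∧ m x ≠ x ∧ G.dist (m x) v ≤ k := by
  obtain ⟨b, hab, hb⟩ := exists_next hc hd
  obtain ⟨k', rfl⟩ : ∃ k', k = k' + 1 := ⟨k - 1, by omega⟩
  obtain ⟨d, hbd, hdd⟩ := exists_next hc hb
  have hbv : b ≠ v := by
    rintro rfl
    simp at hb
  have hmb : m b ≠ b := by
    intro h
    rcases hall b h with h' | h'
    · exact hbv h'
    · exact hab.ne h'.symm
  have hbc : G.Adj b (m b) := hm.2 b hmb
  have hmc : m (m b) = b := hm.1 b
  have hca : m b ≠ a := by
    intro h
    have : m a = b := by rw [← h]; exact hmc
    exact hab.ne (ha.symm.trans this)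
  by_cases hcd : m b = d
  · refine ⟨b, hab, hmb, ?_⟩
    rw [hcd, hdd]
    omega
  · have hadn : a ≠ d := by
      rintro rfl
      omega
    rcases hclaw b a d (m b) hab.symm hbd hbc hadn (Ne.symm hcd) (Ne.symm hca) with h | h | h
    · have := adj_dist_le hc h v
      omega
    · refine ⟨b, hab, hmb, ?_⟩
      have := adj_dist_le hc h.symm v
      omega
    · refine ⟨m b, h, ?_, ?_⟩
      · rw [hmc]; exact Ne.symm hmb
      · rw [hmc, hb]

/-- Rotation: `a` gets matched to `x`, the old mate of `x` becomes uncovered. -/
def rot (m : V → V) (a x : V) : V → V := fun y =>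
  if y = a then x else if y = x then a else if y = m x then m x else m y

section RotLemmas

variable {G : SimpleGraph V} {m : V → V} {a x : V}

theorem rot_a : rot m a x a = x := by simp [rot]

theorem rot_x (hxa : x ≠ a) : rot m a x x = a := by simp [rot, hxa]

theorem rot_mx (h1 : m x ≠ a) (h2 : m x ≠ x) : rot m a x (m x) = m x := by simp [rot, h1, h2]

theorem rot_other {y : V} (h1 : y ≠ a) (h2 : y ≠ x) (h3 : y ≠ m x) : rot m a x y = m y := by
  simp [rot, h1, h2, h3]

theorem rot_isMate (hm : IsMate G m) (ha : m a = a) (hadj : G.Adj a x) (hx : m x ≠ x) :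
    IsMate G (rot m a x) := by
  have hxa : x ≠ a := hadj.ne.symm
  have hmxa : m x ≠ a := by
    intro h
    have : m a = x := by rw [← h]; exact hm.1 x
    exact hxa (this.symm.trans ha)
  constructor
  · intro y
    by_cases h1 : y = a
    · subst h1; rw [rot_a, rot_x hxa]
    by_cases h2 : y = x
    · subst h2; rw [rot_x hxa, rot_a]
    by_cases h3 : y = m x
    · subst h3; rw [rot_mx hmxa hx, rot_mx hmxa hx]
    · rw [rot_other h1 h2 h3]
      have e1 : m y ≠ a := by
        intro h
        have : m a = y := by rw [← h]; exact hm.1 y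
        exact h1 (this.symm.trans ha)
      have e2 : m y ≠ x := by
        intro h
        apply h3
        rw [← h, hm.1 y]
      have e3 : m y ≠ m x := by
        intro h
        apply h2
        have := congrArg m h
        rwa [hm.1, hm.1] at this
      rw [rot_other e1 e2 e3, hm.1]
  · intro y hy
    by_cases h1 : y = a
    · subst h1; rw [rot_a]; exact hadj
    by_cases h2 : y = x
    · subst h2; rw [rot_x hxa]; exact hadj.symm
    by_cases h3 : y = m x
    · subst h3
      exact absurd (rot_mx hmxa hx) hy
    · rw [rot_other h1 h2 h3] at hy ⊢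
      exact hm.2 y hy

end RotLemmas

open Classical in
/-- The second uncovered vertex, given one uncovered vertex `v`. -/
noncomputable def hole (v : V) (m : V → V) : V :=
  if h : ∃ a, a ≠ v ∧ m a = a then h.choose else v

open Classical in
/-- Undo a rotation. -/
noncomputable def unrot (v : V) (m' : V → V) (x : V) : V → V := fun y =>
  if y = m' x then m' x else if y = x then hole v m' else if y = hole v m' then x else m' y

open Classical in
/-- Near-perfect mate maps with `v` uncovered and the other uncovered vertex within distance `k`. -/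
noncomputable def lvl (G : SimpleGraph V) (v : V) (k : ℕ) : Finset (V → V) :=
  (nearMates G).filter fun m => m v = v ∧ ∀ a, m a = a → G.dist a v ≤ k

open Classical in
/-- Delete the edge at `v`. -/
noncomputable def opn (v : V) (N : V → V) : V → V := fun y =>
  if y = v ∨ y = N v then y else N y

open Classical in
theorem lvl_one_le (G : SimpleGraph V) (hc : G.Connected) (v : V) :
    (lvl G v 1).card ≤ (perfectMates G).card := by
  refine le_trans (Finset.card_le_card ?_) (Finset.card_image_le (f := opn v))
  intro m hm
  obtain ⟨hnear, hv, hd⟩ := mem_filter.mp hm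
  obtain ⟨a, hav, ha, hall⟩ := holes_of_mem hnear hv
  have hmate : IsMate G m := (mem_filter.mp hnear).2.1
  have hadj : G.Adj a v := by
    have h1 := hd a ha
    have h0 : G.dist a v ≠ 0 := by
      intro h
      exact hav ((hc.dist_eq_zero_iff).mp h)
    have : G.dist a v = 1 := by omega
    exact SimpleGraph.dist_eq_one_iff_adj.mp this
  set N : V → V := fun y => if y = v then a else if y = a then v else m y with hN
  have hNv : N v = a := by simp [hN]
  have hNa : N a = v := by simp [hN, hav]
  have hNo : ∀ y, y ≠ v → y ≠ a → N y = m y := by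
    intro y h1 h2
    simp [hN, h1, h2]
  have hmo : ∀ y, y ≠ v → y ≠ a → m y ≠ v ∧ m y ≠ a ∧ m y ≠ y := by
    intro y h1 h2
    refine ⟨?_, ?_, ?_⟩
    · intro h
      have : m v = y := by rw [← h]; exact hmate.1 y
      exact h1 (this.symm.trans hv)
    · intro h
      have : m a = y := by rw [← h]; exact hmate.1 y
      exact h2 (this.symm.trans ha)
    · intro h
      rcases hall y h with h' | h'
      · exact h1 h'
      · exact h2 h'
  have hNmate : IsMate G N := by
    constructor
    · intro y
      by_cases h1 : y = v
      · subst h1; rw [hNv, hNa]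
      by_cases h2 : y = a
      · subst h2; rw [hNa, hNv]
      rw [hNo y h1 h2]
      obtain ⟨e1, e2, _⟩ := hmo y h1 h2
      rw [hNo _ e1 e2, hmate.1]
    · intro y _
      by_cases h1 : y = v
      · subst h1; rw [hNv]; exact hadj.symm
      by_cases h2 : y = a
      · subst h2; rw [hNa]; exact hadj
      rw [hNo y h1 h2]
      exact hmate.2 y (hmo y h1 h2).2.2
  have hNfree : ∀ y, N y ≠ y := by
    intro y
    by_cases h1 : y = v
    · subst h1; rw [hNv]; exact hav
    by_cases h2 : y = a
    · subst h2; rw [hNa]; exact hav.symm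
    rw [hNo y h1 h2]
    exact (hmo y h1 h2).2.2
  refine mem_image.mpr ⟨N, mem_filter.mpr ⟨mem_univ _, hNmate, hNfree⟩, ?_⟩
  funext y
  unfold opn
  rw [hNv]
  by_cases h1 : y = v
  · subst h1; simp [hv]
  by_cases h2 : y = a
  · subst h2; simp [ha]
  simp [h1, h2, hNo y h1 h2]

open Classical in
theorem lvl_succ_le (G : SimpleGraph V) (hc : G.Connected) (hclaw : IsClawFree G) (v : V) {Δ k : ℕ}
    (hΔ : ∀ w, (univ.filter (G.Adj w)).card ≤ Δ) (hk : 1 ≤ k) :
    (lvl G v (k + 1)).card ≤ (Δ + 1) * (lvl G v k).card := by
  set T := (lvl G v k).biUnion fun m' => (univ.filter (G.Adj (hole v m'))).image (unrot v m') with hT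
  have hT_card : T.card ≤ (lvl G v k).card * Δ := by
    apply Finset.card_biUnion_le_card_mul
    intro m' _
    exact le_trans Finset.card_image_le (hΔ _)
  have hsub : lvl G v (k + 1) ⊆ lvl G v k ∪ T := by
    intro m hm
    obtain ⟨hnear, hv, hd⟩ := mem_filter.mp hm
    by_cases hlow : ∀ a, m a = a → G.dist a v ≤ k
    · exact mem_union_left _ (mem_filter.mpr ⟨hnear, hv, hlow⟩)
    · apply mem_union_right
      push Not at hlow
      obtain ⟨a, ha, hlt⟩ := hlow
      have hda : G.dist a v = k + 1 := by
        have := hd a ha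
        omega
      have hav : a ≠ v := by
        rintro rfl
        simp at hda
      have hmate : IsMate G m := (mem_filter.mp hnear).2.1
      obtain ⟨a', hav', ha', hall'⟩ := holes_of_mem hnear hv
      have haa : a = a' := by
        rcases hall' a ha with h | h
        · exact absurd h hav
        · exact h
      subst haa
      obtain ⟨x, hadj, hx, hxd⟩ := exists_step hc hclaw hmate ha hall' hk hda
      have hxa : x ≠ a := hadj.ne.symm
      have hxv : x ≠ v := by
        rintro rfl
        exact hx hv
      have hmxa : m x ≠ a := by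
        intro h
        have : m a = x := by rw [← h]; exact hmate.1 x
        exact hxa (this.symm.trans ha)
      have hmxv : m x ≠ v := by
        intro h
        have : m v = x := by rw [← h]; exact hmate.1 x
        exact hxv (this.symm.trans hv)
      set m' := rot m a x with hm'
      have hm'mate : IsMate G m' := rot_isMate hmate ha hadj hx
      have hm'v : m' v = v := by
        rw [hm', rot_other hav.symm hxv.symm hmxv.symm]
        exact hv
      have hm'mx : m' (m x) = m x := rot_mx hmxa hx
      have hm'all : ∀ y, m' y = y → y = v ∨ y = m x := by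
        intro y hy
        by_cases h1 : y = a
        · subst h1
          rw [hm', rot_a] at hy
          exact absurd hy hxa
        by_cases h2 : y = x
        · subst h2
          rw [hm', rot_x hxa] at hy
          exact absurd hy.symm hxa
        by_cases h3 : y = m x
        · exact Or.inr h3
        · rw [hm', rot_other h1 h2 h3] at hy
          rcases hall' y hy with h | h
          · exact Or.inl h
          · exact absurd h h1
      have hm'near : m' ∈ nearMates G := mem_near_of hm'mate hmxv hm'v hm'mx hm'all
      have hm'lvl : m' ∈ lvl G v k := by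
        refine mem_filter.mpr ⟨hm'near, hm'v, ?_⟩
        intro y hy
        rcases hm'all y hy with rfl | rfl
        · simp
        · exact hxd
      have hhole : hole v m' = m x := by
        have hex : ∃ b, b ≠ v ∧ m' b = b := ⟨m x, hmxv, hm'mx⟩
        unfold hole
        rw [dif_pos hex]
        obtain ⟨h1, h2⟩ := hex.choose_spec
        rcases hm'all _ h2 with h | h
        · exact absurd h h1
        · exact h
      refine mem_biUnion.mpr ⟨m', hm'lvl, ?_⟩
      refine mem_image.mpr ⟨x, ?_, ?_⟩
      · rw [hhole]
        refine mem_filter.mpr ⟨mem_univ _, ?_⟩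
        exact (hmate.2 x hx).symm
      · funext y
        unfold unrot
        rw [hhole]
        have hm'x : m' x = a := rot_x hxa
        rw [hm'x]
        by_cases h1 : y = a
        · subst h1; simp [ha]
        by_cases h2 : y = x
        · subst h2; simp [h1]
        by_cases h3 : y = m x
        · subst h3
          simp [h1, h2, hmate.1]
        · simp only [h1, h2, h3, if_false]
          exact rot_other h1 h2 h3
  calc (lvl G v (k + 1)).card ≤ (lvl G v k ∪ T).card := Finset.card_le_card hsub
    _ ≤ (lvl G v k).card + T.card := Finset.card_union_le _ _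
    _ ≤ (lvl G v k).card + (lvl G v k).card * Δ := by omega
    _ = (Δ + 1) * (lvl G v k).card := by ring

open Classical in
theorem lvl_le (G : SimpleGraph V) (hc : G.Connected) (hclaw : IsClawFree G) (v : V) {Δ : ℕ}
    (hΔ : ∀ w, (univ.filter (G.Adj w)).card ≤ Δ) (j : ℕ) :
    (lvl G v (j + 1)).card ≤ (Δ + 1) ^ j * (perfectMates G).card := by
  induction j with
  | zero => simpa using lvl_one_le G hc v
  | succ j ih =>
    calc (lvl G v (j + 1 + 1)).card ≤ (Δ + 1) * (lvl G v (j + 1)).card :=
          lvl_succ_le G hc hclaw v hΔ (by omega)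
      _ ≤ (Δ + 1) * ((Δ + 1) ^ j * (perfectMates G).card) := Nat.mul_le_mul_left _ ih
      _ = (Δ + 1) ^ (j + 1) * (perfectMates G).card := by ring

open Classical in
/-- Main bound: connected claw-free graphs, maximum degree at most `Δ`, all distances at most `D`. -/
theorem near_le (G : SimpleGraph V) (hc : G.Connected) (hclaw : IsClawFree G) {Δ D : ℕ}
    (hΔ : ∀ w, (univ.filter (G.Adj w)).card ≤ Δ) (hD1 : 1 ≤ D) (hD : ∀ a b, G.dist a b ≤ D) :
    (nearMates G).card ≤ Fintype.card V * ((Δ + 1) ^ (D - 1) * (perfectMates G).card) := by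
  have hsub : nearMates G ⊆ (univ : Finset V).biUnion fun v => lvl G v D := by
    intro m hm
    have h2 := (mem_filter.mp hm).2.2
    have hne : (univ.filter fun v => m v = v).Nonempty := by
      rw [← Finset.card_pos]
      omega
    obtain ⟨v, hv⟩ := hne
    refine mem_biUnion.mpr ⟨v, mem_univ _, mem_filter.mpr ⟨hm, (mem_filter.mp hv).2, ?_⟩⟩
    intro a _
    exact hD a v
  refine le_trans (Finset.card_le_card hsub) ?_
  have := Finset.card_biUnion_le_card_mul (univ : Finset V) (fun v => lvl G v D)
    ((Δ + 1) ^ (D - 1) * (perfectMates G).card) ?_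
  · simpa using this
  · intro v _
    have h := lvl_le G hc hclaw v hΔ (D - 1)
    rwa [Nat.sub_add_cancel hD1] at h

/-- Independence number at most two. -/
def AlphaLeTwo (G : SimpleGraph V) : Prop :=
  ∀ x y z, x ≠ y → y ≠ z → x ≠ z → G.Adj x y ∨ G.Adj y z ∨ G.Adj x z

theorem AlphaLeTwo.clawFree {G : SimpleGraph V} (h : AlphaLeTwo G) : IsClawFree G :=
  fun _ x y z _ _ _ h1 h2 h3 => h x y z h1 h2 h3

theorem AlphaLeTwo.dist_le {G : SimpleGraph V} (h : AlphaLeTwo G) (hc : G.Connected) (a b : V) :
    G.dist a b ≤ 3 := by
  by_contra hlt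
  obtain ⟨l, hl⟩ : ∃ l, G.dist a b = l + 1 + 1 + 1 + 1 := ⟨G.dist a b - 4, by omega⟩
  obtain ⟨p1, h1, d1⟩ := exists_next hc hl
  obtain ⟨p2, h2, d2⟩ := exists_next hc d1
  obtain ⟨p3, h3, d3⟩ := exists_next hc d2
  obtain ⟨p4, h4, d4⟩ := exists_next hc d3
  have hne1 : a ≠ p2 := by
    rintro rfl
    omega
  have hne2 : p2 ≠ p4 := by
    rintro rfl
    omega
  have hne3 : a ≠ p4 := by
    rintro rfl
    omega
  rcases h a p2 p4 hne1 hne2 hne3 with h' | h' | h'
  · have := adj_dist_le hc h' b
    omega
  · have := adj_dist_le hc h' b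
    omega
  · have := adj_dist_le hc h' b
    omega

open Classical in
theorem near_le_alpha (G : SimpleGraph V) (hc : G.Connected) (h : AlphaLeTwo G) :
    (nearMates G).card ≤ Fintype.card V ^ 3 * (perfectMates G).card := by
  have hne : Nonempty V := hc.nonempty
  have hpos : 0 < Fintype.card V := Fintype.card_pos
  have hΔ : ∀ w, (univ.filter (G.Adj w)).card ≤ Fintype.card V - 1 := by
    intro w
    have : (univ.filter (G.Adj w)) ⊆ univ.erase w := by
      intro x hx
      exact mem_erase.mpr ⟨(mem_filter.mp hx).2.ne.symm, mem_univ _⟩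
    have h2 := Finset.card_le_card this
    rw [Finset.card_erase_of_mem (mem_univ _), Finset.card_univ] at h2
    exact h2
  have := near_le G hc h.clawFree hΔ (D := 3) (by omega) (h.dist_le hc)
  have e : Fintype.card V - 1 + 1 = Fintype.card V := by omega
  rw [e] at this
  calc (nearMates G).card ≤ Fintype.card V * (Fintype.card V ^ 2 * (perfectMates G).card) := this
    _ = Fintype.card V ^ 3 * (perfectMates G).card := by ring

end Vale.Agent.Lib.P308
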